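import Vale.Agent.P266.Alg.Final

/-! P266: a singular affine complex surface whose derivation module is free. -/

namespace Vale.Agent.Results.P266.LipmanZariskiFalse

theorem result :
    ∃ (A : Type) (_ : CommRing A) (_ : Algebra ℂ A), IsDomain A ∧ Algebra.FiniteType ℂ A ∧
      Nonempty (Module.Basis (Fin 2) A (Derivation ℂ A A)) ∧
      Module.Projective A (Derivation ℂ A A) ∧ ¬ IsRegularRing A := by
  obtain ⟨A, iC, iA, h1, h2, h3, h4, h5⟩ := Vale.Agent.P266.Alg.counterexample
  exact ⟨A, iC, iA, h1, h2, h4, h3, h5⟩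

end Vale.Agent.Results.P266.LipmanZariskiFalse
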